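import Crest.Agent.X212.Lns95.Lf

/-!
# Row 212, LENS (helper34): the terms of a cut at an abelian point
-/

set_option autoImplicit false
set_option linter.unusedSectionVars false
noncomputable section
open scoped Manifold ContDiff Topology InnerProductSpace
open Set Function Filter

namespace Crest.Agent.X212.Cob34
open An Wz78 Hol14 Wrd81
open Mp86 (Bumps Mc res_fix)

variable {E : Type} [NormedAddCommGroup E] [NormedSpace ℝ E] [FiniteDimensional ℝ E]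
  [MeasurableSpace E] [BorelSpace E]
  {HM : Type} [TopologicalSpace HM] {I : ModelWithCorners ℝ E HM} [I.Boundaryless]
  {M : Type} [TopologicalSpace M] [ChartedSpace HM M] [IsManifold I ∞ M] [T2Space M]
  [MeasurableSpace M] [BorelSpace M] [SecondCountableTopology M] {ι : Type} [Fintype ι]
  {lam : Type} [Fintype lam] {B : Base M ι lam} {G : Geo I M ι lam} {Ω : Set M}

section
variable {V : Type} [NormedAddCommGroup V] [InnerProductSpace ℝ V] [FiniteDimensional ℝ V]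
  {F : An.Fr I M ι} {A : ι → M → V →L[ℝ] V} (hb : Bumps I F.e F.dv) (hA : Mc I A) (hΩ : IsClopen Ω)
include hb hA hΩ

/-- the resolvent preserves parallel subbundles over a clopen set -/
theorem res_on {T : M → V →L[ℝ] V} (hT : ∀ x ∈ Ω, SA I T x) {C : ℝ} (hC : ∀ x ∈ Ω, ‖T x‖ ≤ C)
    (hi : ∀ x ∈ Ω, Eqv71.Itw I F.e A A T x) {s : M → V} (hs : ∀ x ∈ Ω, T x (s x) = s x) :
    ∀ x ∈ Ω, T x (F.res A s x) = F.res A s x := fun x hx => by
  classical
  have e : ∀ x ∈ Ω, Ω.piecewise T 1 =ᶠ[𝓝 x] T := fun x hx =>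
    mem_of_superset (hΩ.isOpen.mem_nhds hx) fun y hy => piecewise_eq_of_mem _ _ _ hy
  have e' : ∀ x ∉ Ω, Ω.piecewise T 1 =ᶠ[𝓝 x] fun _ => 1 := fun x hx =>
    mem_of_superset (hΩ.compl.isOpen.mem_nhds hx) fun y hy => piecewise_eq_of_notMem _ _ _ hy
  rw [← (e x hx).eq_of_nhds]
  refine res_fix hb hA (fun y => ?_) ⟨max C 1, fun y => ?_⟩ (fun y a => ?_) (fun y => ?_) x <;>
    by_cases hy : y ∈ Ω
  · exact (hT y hy).congr_of_eventuallyEq (e y hy)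
  · exact contMDiffAt_const.congr_of_eventuallyEq (e' y hy)
  · exact (e y hy).eq_of_nhds ▸ (hC y hy).trans (le_max_left _ _)
  · exact (e' y hy).eq_of_nhds ▸ ContinuousLinearMap.norm_id_le.trans (le_max_right _ _)
  · rw [Sob92.dv_congr (e y hy), (e y hy).eq_of_nhds]; exact hi y hy a
  · rw [Sob92.dv_congr (e' y hy), (e' y hy).eq_of_nhds, Sob92.dv_const]; exact zero_add _
  · rw [(e y hy).eq_of_nhds, hs y hy]
  · rw [(e' y hy).eq_of_nhds]; rfl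

theorem res_zero_on {s : M → V} (hs : ∀ x ∈ Ω, s x = 0) : ∀ x ∈ Ω, F.res A s x = 0 := fun x hx =>
  (res_on hb hA hΩ (T := fun _ => 0) (fun _ _ => contMDiffAt_const) (fun _ _ => le_rfl)
    (fun _ _ _ => by simp) (fun y hy => (hs y hy).symm) x hx).symm

theorem res_line {ξ : M → V} (h1 : ∀ x ∈ Ω, SA I ξ x) (h2 : ∀ x ∈ Ω, ‖ξ x‖ ^ 2 = 16)
    (h3 : ∀ x ∈ Ω, ∀ a, nab I F.e A a ξ x = 0) {s : M → V} (hs : ∀ x ∈ Ω, ∃ b : ℝ, s x = b • ξ x) :
    ∀ x ∈ Ω, ∃ b : ℝ, F.res A s x = b • ξ x := fun x hx => by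
  let β : V →L[ℝ] V →L[ℝ] V →L[ℝ] V :=
    ContinuousLinearMap.smulRightL ℝ V V ∘L ((1 / 16 : ℝ) • innerSL ℝ)
  have e : ∀ u v w, β u v w = ((1 / 16 : ℝ) * ⟪u, w⟫_ℝ) • v := fun _ _ _ => rfl
  refine ⟨_, (res_on hb hA hΩ (T := fun y => β (ξ y) (ξ y)) (C := ‖(1 / 16 : ℝ) • innerSL ℝ (E := V)‖ * 16)
    (fun y hy => β.isBoundedBilinearMap.contDiff.contDiffAt.comp_contMDiffAt
      (f := fun y => (ξ y, ξ y)) ((h1 y hy).prodMk_space (h1 y hy)))
    (fun y hy => ((ContinuousLinearMap.norm_smulRight_apply _ _).trans_le (mul_le_mul_of_nonneg_right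
      (ContinuousLinearMap.le_opNorm _ _) (norm_nonneg _))).trans_eq
      (by rw [mul_assoc, ← sq, h2 y hy])) (fun y hy a => ?_)
    (fun y hy => ?_) x hx).symm.trans (e _ _ _)⟩
  · rw [Sob92.dv_bil β (SA.md (h1 y hy)) (SA.md (h1 y hy)),
      eq_neg_of_add_eq_zero_left (h3 y hy a)]
    refine ContinuousLinearMap.ext fun η => ?_
    simp only [add_apply, ContinuousLinearMap.comp_apply, e, inner_neg_left, hA.sk a y (ξ y) η,
      map_smul, neg_neg, smul_neg]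
    abel
  · obtain ⟨b, hb⟩ := hs y hy
    rw [e, hb, real_inner_smul_right, real_inner_self_eq_norm_sq, h2 y hy]
    congr 1; ring

end

variable {r : ℕ} {c : Cfg M ι lam r} {ξ : M → c.m.A} (hB : B.OK I) (hG : G.OK B)
  (hb : Bumps I G.F.e G.F.dv) (hΩ : IsClopen Ω) (A : Qab60.Ab B G Ω c ξ)
include hB hG hb hΩ A

theorem sw_zero (w : SW M) : ∀ x ∈ Ω, c.sw G.F w x = 0 := by
  refine wd_ind (p := fun u : M → c.m.V => ∀ x ∈ Ω, u x = 0) A.z (fun t u hu x hx => ?_) w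
  cases t
  exacts [by simp [Cfg.lt, hu x hx], by simp [Cfg.lt, hu x hx], by simp [Cfg.lt, hu x hx],
    res_zero_on hb (Abel74.mcW A.adm.conn) hΩ hu x hx]

omit hB hG hb hΩ A in
theorem q_zero (x : M) (u : c.m.V) : c.m.q x u 0 = 0 :=
  norm_le_zero_iff.1 ((norm_q u 0).trans_eq (by simp))

theorem res_xi {s : M → c.m.A} (hs : ∀ x ∈ Ω, ∃ b : ℝ, s x = b • ξ x) :
    ∀ x ∈ Ω, ∃ b : ℝ, G.F.res (c.m.adW c.W) s x = b • ξ x :=
  res_line hb (Abel74.mcA A.adm.conn) hΩ A.rd.sm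
    (fun x hx => Abel74.norm_sq A.adm.ok (A.rd.mem x hx) (A.rd.sq x hx)) A.rd.par hs

theorem wd_xi {s : M → c.m.A} (hs : ∀ x ∈ Ω, ∃ b : ℝ, s x = b • ξ x) (l : List (La M)) :
    ∀ x ∈ Ω, ∃ b : ℝ, wd (c.la G.F) s l x = b • ξ x := by
  refine wd_ind (p := fun u : M → c.m.A => ∀ x ∈ Ω, ∃ b : ℝ, u x = b • ξ x) hs
    (fun t u hu x hx => ?_) l
  cases t
  exacts [(hu x hx).elim fun b e => ⟨_, (congrArg _ e).trans (smul_smul _ _ _)⟩,
    res_xi hB hG hb hΩ A hu x hx]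

theorem aw_xi (w : AW M) : ∀ x ∈ Ω, ∃ b : ℝ, c.aw G.F w x = b • ξ x := by
  refine wd_xi hB hG hb hΩ A ?_ _
  cases w.s
  · exact fun x hx => ⟨0, by simp [Cfg.sd, sw_zero hB hG hb hΩ A _ x hx, q_zero]⟩
  · exact res_xi hB hG hb hΩ A (res_xi hB hG hb hΩ A fun x hx => ⟨_, by
      simp only [A.rd.Fg_eq hB hG A.adm.ok A.adm.conn hx, smul_smul, ← Finset.sum_smul]; rfl⟩)

theorem xi_eq (t : Xi M lam r) {x : M} (hx : x ∈ Ω) :
    ∃ a b : ℝ, c.xi G.F t x = a • 1 + b • opL (ξ x) := by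
  cases t with
  | one => exact ⟨1, 0, by simp [Cfg.xi]⟩
  | aw w => exact (aw_xi hB hG hb hΩ A w x hx).elim fun b e => ⟨0, b, by simp [Cfg.xi, e]⟩
  | qj d s u v l =>
    exact (wd_xi hB hG hb hΩ A (s := c.qj G.F d s u v) (fun y hy => ⟨0, by
      simp [Cfg.qj, sw_zero hB hG hb hΩ A _ y hy, q_zero]⟩) l x hx).elim fun b e => ⟨0, b, by simp [Cfg.xi, e]⟩

omit hB hG hb hΩ A in
variable (I M ι lam) in
/-- **LN-XI** -/
theorem xi : Lns95.XiStmt I M ι lam := fun r B G Ω _ c ξ k t hB hG ⟨_, hT⟩ hΩ A hk hx _ => by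
  obtain ⟨a, b, e⟩ := xi_eq hB hG (Mp86.bumps_of_tame _ hT) hΩ A t.ξ hx
  have m := A.rd.mem _ hx
  have h : ∀ T, T * opL (ξ k.x0) = opL (ξ k.x0) * T → T * c.xi G.F t.ξ k.x0 = c.xi G.F t.ξ k.x0 * T :=
    fun T hT => by
      rw [e]; exact ((Commute.one_right T).smul_right a).add_right (Commute.smul_right hT b)
  have h1 := fun ψ => JH_frk_pi hB A.adm.ok (k := k) (F := G.F) (h _ (g_J m)) t.m t.n t.w ψ
  have h2 := ph_tc hB A.adm.ok hk m (A.rd.sq _ hx) t (h _ (g_J m)) (h _ (g_pi A.adm.ok m).symm)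
    (h _ rfl)
  exact ⟨ContinuousLinearMap.ext fun ψ => (h1 ψ).symm, ContinuousLinearMap.ext fun ψ => (h2 ψ).symm⟩

end Crest.Agent.X212.Cob34
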