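import Crest.Agent.X212.Cob34.Cob

/-!
# Row 212, LENS (helper34): the row of a cut at a reduction of flux `± 2π`
-/

set_option autoImplicit false
set_option linter.unusedSectionVars false
noncomputable section
open scoped Manifold ContDiff Topology InnerProductSpace Real
open Set Function Filter Module

namespace Crest.Agent.X212.Cob34
open An Wz78 Hol14
open Fred93 (Fr)
open Abel74 (RedOn fm)

theorem line {H : Type} [NormedAddCommGroup H] [InnerProductSpace ℝ H] {J : H →L[ℝ] H}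
    (sk : ∀ u v, ⟪J u, v⟫_ℝ = -⟪u, J v⟫_ℝ) (sq : ∀ u, J (J u) = -u) {K : Submodule ℝ H}
    [FiniteDimensional ℝ K] (h2 : finrank ℝ K ≤ 2) {ψ ψ' : H} (h : ψ ∈ K) (hJ : J ψ ∈ K)
    (h' : ψ' ∈ K) (n : ‖ψ‖ = 1) (n' : ‖ψ'‖ = 1) :
    ∃ η : Circle, ψ' = (η : ℂ).re • ψ + (η : ℂ).im • J ψ := by
  let L : ℂ →ₗ[ℝ] K := Complex.reLm.smulRight ⟨ψ, h⟩ + Complex.imLm.smulRight ⟨J ψ, hJ⟩
  have e : ∀ c, ‖L c‖ = ‖c‖ := fun c => (pow_left_inj₀ (norm_nonneg _) (norm_nonneg _)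
    two_ne_zero).1 (by
      have a : ⟪J ψ, ψ⟫_ℝ = 0 := Skew.self sk ψ
      have b := sk ψ (J ψ)
      rw [sq, inner_neg_right, neg_neg, real_inner_self_eq_norm_sq, real_inner_self_eq_norm_sq] at b
      change ‖c.re • ψ + c.im • J ψ‖ ^ 2 = _
      rw [norm_add_sq_real, real_inner_smul_left, real_inner_smul_right, real_inner_comm, a,
        norm_smul, norm_smul, mul_pow, mul_pow, b, n, Complex.sq_norm, Complex.normSq_apply]
      simp [sq_abs, pow_two])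
  have i : Injective L := (injective_iff_map_eq_zero _).2 fun c hc => norm_eq_zero.1 (by
    rw [← e, hc, norm_zero])
  obtain ⟨c, hc⟩ := (LinearMap.injective_iff_surjective_of_finrank_eq_finrank (le_antisymm
    (LinearMap.finrank_le_finrank_of_injective i) (by rwa [Complex.finrank_real_complex]))).1 i
    ⟨ψ', h'⟩
  exact ⟨⟨c, mem_sphere_zero_iff_norm.2 (by rw [← e, hc]; exact n')⟩, (congrArg Subtype.val hc).symm⟩

theorem bij_res {H K : Type} [NormedAddCommGroup H] [NormedSpace ℝ H] [NormedAddCommGroup K]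
    [NormedSpace ℝ K] {L Q : H →L[ℝ] H} {P : H →L[ℝ] K} {j : K →L[ℝ] H} (h1 : ∀ χ, P (j χ) = χ)
    (h2 : ∀ ψ, j (P ψ) = Q ψ) (c : ∀ ψ, Q (L ψ) = L (Q ψ)) (hL : Bijective L) :
    Bijective (P ∘L L ∘L j) := by
  refine ⟨(injective_iff_map_eq_zero _).2 fun χ h => ?_, fun χ => ?_⟩
  · have : Q (L (j χ)) = j 0 := (h2 _).symm.trans (congrArg j h)
    rw [c, ← h2, h1, map_zero, map_eq_zero_iff _ hL.1] at this
    rw [← h1 χ, this, map_zero]
  · obtain ⟨ψ, e⟩ := hL.2 (j χ)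
    exact ⟨P ψ, by simp only [ContinuousLinearMap.comp_apply, h2, ← c, e]; rw [← h2, h1, h1]⟩

theorem stab {H K : Type} [NormedAddCommGroup H] [NormedSpace ℝ H] [CompleteSpace H]
    [NormedAddCommGroup K] [NormedSpace ℝ K] [CompleteSpace K] {T Q : H →L[ℝ] H} {P : H →L[ℝ] K}
    {j : K →L[ℝ] H} (h1 : ∀ χ, P (j χ) = χ) (h2 : ∀ ψ, j (P ψ) = Q ψ) (c : ∀ ψ, Q (T ψ) = T (Q ψ))
    (hT : Fr T 0) {n : ℤ} (hn : n ≠ 0) (hA : Fr (P ∘L (T - 0) ∘L j) n) :
    ∃ ε > 0, ∀ σ : H →L[ℝ] H, ‖σ‖ ≤ ε → Commute σ Q → (∃ ψ, ‖ψ‖ = 1 ∧ T ψ = σ ψ) ∧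
      FiniteDimensional ℝ (T - σ).ker ∧ finrank ℝ (T - σ).ker ≤ finrank ℝ T.ker := by
  have a := (Continuous.tendsto (f := fun σ : H →L[ℝ] H => P ∘L (T - σ) ∘L j) (by fun_prop)
    0).eventually hA.eventually
  have b := (Continuous.tendsto' (f := fun σ => T - σ) (by fun_prop) 0 _
    (sub_zero _)).eventually hT.eventually'
  obtain ⟨ε, e0, hε⟩ := Metric.nhds_basis_closedBall.eventually_iff.1 (a.and b)
  refine ⟨ε, e0, fun σ hσ cQ => ?_⟩
  obtain ⟨a, b, c'⟩ := hε (mem_closedBall_zero_iff.2 hσ)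
  refine ⟨by_contra fun h => ?_, b.1.finite_ker, c'⟩
  have i : Injective (T - σ) := (injective_iff_map_eq_zero _).2 fun ψ z =>
    by_contra fun h0 => h ⟨‖ψ‖⁻¹ • ψ, norm_smul_inv_norm h0, by
      rw [map_smul, map_smul, show T ψ = σ ψ from sub_eq_zero.1 z]⟩
  exact hn (a.unique (Fr.of_bijective (bij_res h1 h2 (fun ψ => by
    rw [sub_apply, sub_apply, map_sub, c]
    exact congrArg _ (DFunLike.congr_fun cQ.eq ψ).symm) ⟨i, b.surj_of_inj i⟩)))

theorem ker_two {κ : Type} [Fintype κ] [DecidableEq κ] {J p a b : En κ} {g : Sy κ} (S : Sub J p b)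
    (S' : Sub J p a) (e : ∀ θ, b * g θ = g θ * b) (e' : ∀ θ, a * g θ = g θ * a)
    (F : Fr (tpzL J b g) (2 * 1)) (i : Injective (tpzL J b (tS g))) (i' : Injective (tpzL J a g))
    (sp : ∀ ψ, tpzL J p g ψ = 0 → rH J p J p b ψ = 0 → rH J p J p a ψ = 0 → ψ = 0) :
    finrank ℝ (tpzL J p g).ker ≤ 2 := by
  have := F.1.finite_ker
  have d := (ind_adjoint F.1).unique F
  rw [adjoint_tpzL, LinearMap.ker_eq_bot.2 i, finrank_bot] at d
  refine (LinearMap.finrank_le_finrank_of_injective (f := (rH J p J b b).toLinearMap.restrict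
    (p := (tpzL J p g).ker) (q := (tpzL J b g).ker) fun ψ hψ =>
      (S.it.rH_tpzL e ψ).symm.trans ((congrArg _ hψ).trans (map_zero _)))
    ((injective_iff_map_eq_zero _).2 fun ψ h => Subtype.ext (sp _ ψ.2 ?_ ?_))).trans (by omega)
  · exact (S.incl_proj ψ.1).symm.trans ((congrArg _ (congrArg Subtype.val h)).trans (map_zero _))
  · exact (S'.incl_proj ψ.1).symm.trans ((congrArg _ ((map_eq_zero_iff _ i').1
      ((S'.it.rH_tpzL e' ψ.1).symm.trans ((congrArg _ ψ.2).trans (map_zero _))))).trans (map_zero _))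

theorem adj_sym {κ : Type} [Fintype κ] [DecidableEq κ] {J q T : En κ} (h : CP J q)
    (e : q * T = T * q) {a b : ℝ} (h1 : T * q = (a • 1 + Real.sin (-b) • J) * q) :
    trn T * q = (a • 1 + Real.sin b • J) * q := by
  have := congrArg trn (e.trans h1)
  rw [trn_mul, trn_mul, Sym.trn h.sym, trn_add, trn_smul, trn_smul, trn_one, Skw.trn h.sk,
    Real.sin_neg, neg_smul_neg] at this
  rw [this, mul_add, add_mul, mul_smul_comm, mul_smul_comm, smul_mul_assoc,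
    smul_mul_assoc, h.comm, one_mul, mul_one]

variable {E : Type} [NormedAddCommGroup E] [NormedSpace ℝ E] [FiniteDimensional ℝ E]
  [MeasurableSpace E] [BorelSpace E]
  {HM : Type} [TopologicalSpace HM] {I : ModelWithCorners ℝ E HM} [I.Boundaryless]
  {M : Type} [TopologicalSpace M] [ChartedSpace HM M] [IsManifold I ∞ M] [T2Space M]
  [MeasurableSpace M] [BorelSpace M] [SecondCountableTopology M] {ι : Type} [Fintype ι]
  {lam : Type} [Fintype lam] {m : Md M ι lam} {B : Base M ι lam} {k : Cut M lam}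
  {G : Geo I M ι lam} {W : m.Cn}

section
variable (hB : B.OK I) (H : m.OK I B) (hk : k.OK B G.F) (C : m.IsConn B G W) (hG : G.OK B)
  {ξ : M → m.A} (R : RedOn G.F m W k.supp ξ)
include hB H hk C hG R

theorem sym_ph : ∃ φ : ℝ → ℝ, Continuous φ ∧ φ 1 = φ 0 + flux I k (fm G.F m W ξ) ∧ ∀ t : ℝ,
    cm (k.sym B G.F m W) t * ph B k G.F (ξ k.x0) =
      (Real.cos (φ t) • 1 + Real.sin (-φ t) • m.J) * ph B k G.F (ξ k.x0) := by
  have h1 := R.mem _ x0_mem
  have h2 := R.sq _ x0_mem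
  have S := sub_ph hB H hk h1 h2
  have c := intervalIntegral.continuous_parametric_intervalIntegral_of_continuous' (a₀ := 0)
    (b₀ := 1) (μ := MeasureTheory.volume) (f := fun t s => dns I (gm k) (fm G.F m W ξ) (t, s))
    (cd_fm hB H hk C hG R).continuous
  refine ⟨_, intervalIntegral.continuous_primitive (fun a b => c.intervalIntegrable a b) 0,
    by rw [intervalIntegral.integral_same, zero_add]; rfl, fun t => ?_⟩
  rw [cm_sym hB H hk (cn0_of C), sym_eq, abel_hol hB H hk C hG R t rfl, add_mul, mul_assoc, S.pq,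
    sub_mul (m.pp B _), S.pq, (sub_ph' hB H hk h1 h2).pq, sub_self, add_zero,
    Real.sin_neg, sub_mul, add_mul, smul_mul_assoc (Real.sin _), xi_ph H h1 h2, neg_smul, neg_mul,
    smul_mul_assoc (Real.sin _), sub_eq_add_neg]

theorem ker_le (hn : flux I k (fm G.F m W ξ) = 2 * π) : finrank ℝ (k.T B G.F m W).ker ≤ 2 := by
  have R' := redOn_neg R
  have S := sub_ph' hB H hk (R.mem _ x0_mem) (R.sq _ x0_mem)
  have S' := sub_ph' hB H hk (R'.mem _ x0_mem) (R'.sq _ x0_mem)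
  obtain ⟨φ, c, p, e⟩ := sym_ph hB H hk C hG R
  obtain ⟨φ', c', p', e'⟩ := sym_ph hB H hk C hG R'
  have i := cob _ _ _ (tS (cm (k.sym B G.F m W))) φ S.hq
    (rk_ph hB H hk (R.mem _ x0_mem) (R.sq _ x0_mem)) c (by rw [p, hn])
    fun t => adj_sym S.hq (ph_sym hB H hk C R t) (e t)
  have i' := cob _ _ _ (cm (k.sym B G.F m W)) (fun t => -φ' t) S'.hq
    (rk_ph hB H hk (R'.mem _ x0_mem) (R'.sq _ x0_mem)) c'.neg
    (by rw [p', Abel74.fm_neg, flux_neg, hn]; ring) fun t => by rw [Real.cos_neg]; exact e' t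
  have a2 := ph_sym hB H hk C R'
  refine ker_two (g := cm (k.sym B G.F m W)) S S' (ph_sym hB H hk C R) a2
    (fr_ph hB H hk C hG R (n := 1) (by simpa using hn)) i i' fun ψ h a b =>
      (split hB H hk (ξ k.x0) ψ).trans ?_
  rw [ker_U hB H hk (cn0_of C) (σ := 0) ⟨fun _ => map_zero _, fun _ => rfl⟩ h, sub_self, add_zero]
  exact (congrArg₂ (· + ·) a b).trans (add_zero _)

end

variable (I M ι lam) in
/-- **LN-TOE** -/
theorem toe : Lns95.ToeStmt I M ι lam := fun B G m W k ξ hB hG H C hk R hf => by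
  have S := sub_ph' hB H hk (R.mem _ x0_mem) (R.sq _ x0_mem)
  obtain ⟨⟨n, n0, hn⟩, h2⟩ : (∃ n : ℤ, n ≠ 0 ∧ flux I k (fm G.F m W ξ) = n * (2 * π)) ∧
      finrank ℝ (k.T B G.F m W).ker ≤ 2 := by
    rcases eq_or_eq_neg_of_abs_eq hf with e | e
    · exact ⟨⟨1, one_ne_zero, by simpa using e⟩, ker_le hB H hk C hG R e⟩
    · exact ⟨⟨-1, by simp, by simpa using e⟩, ker_le hB H hk C hG (redOn_neg R)
        (by rw [Abel74.fm_neg, flux_neg, e, neg_neg])⟩
  obtain ⟨ε, e0, hε⟩ := stab S.proj_incl S.incl_proj (ph_T hB H hk C R) (fr_T hB H hk (cn0_of C))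
    (mul_ne_zero two_ne_zero n0) (fr_half hB H hk C R hG hn isCompactOperator_zero)
  refine ⟨ε, e0, fun σ hσ cJ cQ => ?_⟩
  obtain ⟨a, b, c⟩ := hε σ hσ cQ
  refine ⟨a, fun ψ ψ' n1 e1 n2 e2 => ?_⟩
  obtain ⟨η, e⟩ := line (JH_skew S.hp) (JH_JH S.hp) (c.trans h2) (ψ := ψ) (ψ' := ψ')
    (sub_eq_zero.2 e1) (sub_eq_zero.2 ((JH_T hB H hk (cn0_of C) ψ).symm.trans
      ((congrArg _ e1).trans (DFunLike.congr_fun cJ.eq ψ).symm))) (sub_eq_zero.2 e2) n1 n2
  exact ⟨η, e.trans (rH_csE S.hp _ ψ).symm⟩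

end Crest.Agent.X212.Cob34
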