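import Crest.Agent.X212.Lns95.Lf

/-!
# Row 212, LENS (helper34): Coburn's lemma for symbols of winding number one
-/

set_option autoImplicit false
set_option linter.unusedSectionVars false
noncomputable section
open scoped Topology InnerProductSpace
open MeasureTheory Set Function Filter Module

namespace Crest.Agent.X212.Cob34
open An Wz78 Hol14
open Fred93 (Fr)

theorem ae_zero {X : Type} [MeasurableSpace X] [TopologicalSpace X] [BorelSpace X]
    [HasOuterApproxClosed X] {μ : Measure X} {F : X → ℝ} (hF : Integrable F μ)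
    (h : ∀ φ : C(X, ℝ), ∫ x, φ x * F x ∂μ = 0) : ∀ᵐ x ∂μ, F x = 0 := by
  refine ae_eq_zero_of_forall_setIntegral_isClosed_eq_zero hF fun s hs => ?_
  rw [← integral_indicator hs.measurableSet]
  have c : ∀ n, Continuous fun x => (hs.apprSeq n x : ℝ) := fun n => by fun_prop
  refine tendsto_nhds_unique (tendsto_integral_of_dominated_convergence
    (F := fun n x => (hs.apprSeq n x : ℝ) * F x) (fun x => ‖F x‖)
    (fun n => (c n).aestronglyMeasurable.mul hF.1) hF.norm (fun n => .of_forall fun x => ?_)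
    (.of_forall fun x => ?_)) (tendsto_const_nhds.congr fun n => (h ⟨_, c n⟩).symm)
  · rw [norm_mul]
    exact mul_le_of_le_one_left (norm_nonneg _)
      (by simpa using HasOuterApproxClosed.apprSeq_apply_le_one hs n x)
  · have := (NNReal.tendsto_coe.2
      (tendsto_pi_nhds.1 (HasOuterApproxClosed.tendsto_apprSeq hs) x)).mul_const (F x)
    by_cases hx : x ∈ s <;> simpa [hx] using this

variable {κ : Type} [Fintype κ] [DecidableEq κ] {J q : En κ} {G : Sy κ}

theorem exists_low (h : CP J q) {f : Hd J q} (hf : f ≠ 0) :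
    ∃ m : ℤ, fc J m f ≠ 0 ∧ ∀ k < m, fc J k f = 0 := by
  classical
  refine ⟨Nat.find (exists_fc_ne h hf), Nat.find_spec (exists_fc_ne h hf), fun k hk => ?_⟩
  rcases lt_or_ge k 0 with h0 | h0
  · exact ((mem_Hd h).1 f.2).1 k h0
  · lift k to ℕ using h0
    exact not_not.1 (Nat.find_min _ (by exact_mod_cast hk))

/-- Hardy functions with disjoint supports -/
theorem prod_zero (h : CP J q) {f g : Hd J q}
    (e : ∀ᵐ θ ∂μc, (f : L2c κ) θ = 0 ∨ (g : L2c κ) θ = 0) (hf : f ≠ 0) : g = 0 := by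
  by_contra hg
  obtain ⟨m, m1, m2⟩ := exists_low h hf
  obtain ⟨n, n1, n2⟩ := exists_low h hg
  let S : En κ := rk1 (fc J m f) (fc J n g) - rk1 (J (fc J m f)) (J (fc J n g))
  have eS' : ∀ w, S w = ⟪fc J n g, w⟫_ℝ • fc J m f - ⟪J (fc J n g), w⟫_ℝ • J (fc J m f) :=
    fun _ => rfl
  have JJ : ∀ v, J (J v) = -v := fun v => app h.sq v
  have hS : J * S = -(S * J) := ContinuousLinearMap.ext fun w => by
    have a := h.sk (fc J n g) w
    have b := h.sk (fc J n g) (J w)
    rw [JJ, inner_neg_right, neg_neg] at b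
    simp only [mul_apply_eq_comp, neg_apply, eS', map_sub, map_smul, JJ, a, b]
    module
  have u : mulC (eS J (-m)) f ∈ Hd J q := (mem_Hd h).2
    ⟨fun k hk => by rw [fc_eS h.toCJ, m2 _ (by omega)], (cm_fS h _).p_fc h f⟩
  have w := (mem_orth h (u := mulC (eS J n) (mulC (cS S) g) - md J 0 (S (fc J n g)))).2
    (fun k hk => by
      rw [map_sub, fc_eS h.toCJ, fc_cS_anti h.sk hS, fc_md h.toCJ]
      split_ifs with k0
      · simp [k0]
      · rw [n2 _ (by omega)]; simp) _ u
  have z : ⟪mulC (eS J (-m)) f, mulC (eS J n) (mulC (cS S) g)⟫_ℝ = 0 := by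
    rw [L2.inner_def]
    refine integral_eq_zero_of_ae ?_
    filter_upwards [e, mulC_ae (eS J (-m)) f, mulC_ae (eS J n) (mulC (cS S) g), mulC_ae (cS S) g]
      with θ a b c d
    rw [b, c, d]
    rcases a with a | a <;> simp [a]
  rw [inner_sub_right, z, real_inner_comm, ← inner_fc, fc_eS h.toCJ, eS',
    Skew.self h.sk (fc J n g)] at w
  simp [real_inner_smul_left, m1, n1] at w

theorem mem_perp {f : Hd J q} (hf : tpzL J q G f = 0) : mulC G f ∈ (Hd J q)ᗮ :=
  (Submodule.starProjection_apply_eq_zero_iff _).1 (congrArg Subtype.val hf)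

theorem pair_zero (h : CP J q) (hG : Cm J q G) {f g : Hd J q} (hf : tpzL J q G f = 0)
    (hg : tpzL J q (tS G) g = 0) (φ : C(UnitAddCircle, ℂ)) :
    ∀ c, ⟪mulC (fS J φ) (mulC (cS (csE J c)) (mulC G f)), g⟫_ℝ = 0 := by
  have cJ : ∀ c, J * csE J c = csE J c * J := fun c => (csE_comm rfl c).symm
  refine four_ind (P := fun φ => ∀ c, ⟪mulC (fS J φ) (mulC (cS (csE J c)) (mulC G f)), g⟫_ℝ = 0) ?_
    (fun c => by rw [(fS J).map_zero, mulC.map_zero, zero_apply, inner_zero_left])
    (fun n c => ?_) (fun φ ψ h1 h2 c => ?_) (fun a φ h1 c => ?_) φ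
  · simp only [ofPred_forall]
    exact isClosed_iInter fun v => isClosed_eq (by fun_prop) continuous_const
  · rcases le_total n 0 with hn | hn
    · refine (real_inner_comm _ _).trans ((mem_orth h).2 (fun k hk => ?_) _ g.2)
      rw [fc_eS h.toCJ, fc_cS h.sk (cJ c), (hG.tpz_eq_zero h).1 hf _ (by omega), map_zero, map_zero]
    · rw [mulC_comm (g := cS (csE J c)) (h' := G) (g' := cS (csE J c)) fun θ => csE_comm (hG θ).1 _,
        mulC_comm (h' := G) (g' := eS J n) fun θ => csE_comm (hG θ).1 _, inner_mulC]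
      refine mem_perp hg _ ((mem_Hd h).2 ⟨fun k hk => ?_, fun k => ?_⟩) <;>
        rw [fc_eS h.toCJ, fc_cS h.sk (cJ c)]
      · rw [((mem_Hd h).1 f.2).1 _ (by omega), map_zero]
      · rw [← mul_apply_eq_comp, ← csE_comm h.comm, mul_apply_eq_comp, ((mem_Hd h).1 f.2).2]
  · rw [(fS J).map_add, mulC.map_add, add_apply, inner_add_left, h1, h2, add_zero]
  · rw [fS_smul h.sq, mulC_mul, mulC2 (g := cS (csE J a)) (h := cS (csE J c)) (k := cS (csE J (a * c)))
      fun _ => (csE_mul h.sq a c).symm, h1]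

theorem disj (h : CP J q) (h2 : rk q = 2) (hG : Cm J q G) (hi : ∀ θ v, q v = v → G θ v = 0 → v = 0)
    {f g : Hd J q} (hf : tpzL J q G f = 0) (hg : tpzL J q (tS G) g = 0) :
    ∀ᵐ θ ∂μc, (f : L2c κ) θ = 0 ∨ (g : L2c κ) θ = 0 := by
  have a : ∀ c, ∀ᵐ θ ∂μc, ⟪mulC (cS (csE J c)) (mulC G f) θ, (g : L2c κ) θ⟫_ℝ = 0 := fun c =>
    ae_zero (L2.integrable_inner _ _) fun φ => by
      rw [← pair_zero h hG hf hg (ofR φ) c, L2.inner_def]
      refine integral_congr_ae ?_
      filter_upwards [mulC_ae (fS J (ofR φ)) (mulC (cS (csE J c)) (mulC G f))] with θ e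
      rw [e, ← real_inner_smul_left, fS_apply]
      change _ = ⟪csE J ((φ θ : ℝ) : ℂ) _, _⟫_ℝ
      rw [csE_real]; rfl
  have b : ∀ f : Hd J q, ∀ᵐ θ ∂μc, q ((f : L2c κ) θ) = (f : L2c κ) θ := fun f => by
    have := mulC_ae (cS q) f
    rw [cS_coe h] at this
    exact this.mono fun θ e => e.symm
  filter_upwards [a 1, a Complex.I, mulC_ae (cS (csE J 1)) (mulC G f),
    mulC_ae (cS (csE J Complex.I)) (mulC G f), mulC_ae G f, b f, b g] with θ a1 a2 e1 e2 e3 f1 g1
  rw [e1, e3] at a1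
  rw [e2, e3] at a2
  have e : q (G θ ((f : L2c κ) θ)) = G θ ((f : L2c κ) θ) := (app (hG θ).2 _).trans (congrArg _ f1)
  refine or_iff_not_imp_left.2 fun h0 => g1.symm.trans (line_zero h h2 (v := G θ ((f : L2c κ) θ))
    (fun z => h0 (hi θ _ f1 (e.symm.trans z))) fun c => ?_)
  simp only [ContinuousMap.const_apply, csE_one, csE_I] at a1 a2
  rw [mul_apply_eq_comp, e, csE, add_apply, smul_apply, smul_apply, inner_add_left,
    real_inner_smul_left, real_inner_smul_left, a1, a2]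
  simp

/-- **LN-COB** -/
theorem cob : Lns95.CobStmt := fun κ _ _ J q g φ h h2 hc h1 hg => by
  have hF := fr_lift h hc (n := 1) (by simpa using h1) hg
  have hG : ∀ θ, ∃ a : ℂ, a ≠ 0 ∧ (g * cS q) θ = csE J a * q := fun θ => by
    obtain ⟨t, rfl⟩ := QuotientAddGroup.mk_surjective θ
    refine ⟨_, Complex.exp_ne_zero (φ t * Complex.I), (hg t).trans ?_⟩
    rw [csE, Complex.exp_ofReal_mul_I_re, Complex.exp_ofReal_mul_I_im]
  rw [tpzL_congr h (g' := g * cS q) fun θ => by
    change _ = g θ * q * q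
    rw [mul_assoc, h.idem]] at hF ⊢
  refine (injective_iff_map_eq_zero _).2 fun f hf => by_contra fun h0 => ?_
  have e := (ind_adjoint hF.1).unique hF
  rw [adjoint_tpzL, h2] at e
  obtain ⟨w, hw, w0⟩ := Submodule.exists_mem_ne_zero_of_ne_bot
    (p := (tpzL J q (tS (g * cS q))).ker) fun z => by rw [z, finrank_bot] at e; omega
  refine w0 (prod_zero h (disj h h2 (fun θ => ?_) (fun θ v hv z => ?_) hf hw) h0) <;>
    obtain ⟨a, a0, ha⟩ := hG θ
  · rw [ha, ← mul_assoc, ← mul_assoc, ← csE_comm rfl, ← csE_comm h.comm, mul_assoc, mul_assoc,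
      mul_assoc, h.comm]
    exact ⟨rfl, rfl⟩
  · have := congrArg (csE J a⁻¹) z
    rwa [ha, mul_apply_eq_comp, hv, ← mul_apply_eq_comp, ← csE_mul h.sq, inv_mul_cancel₀ a0, csE_one,
      map_zero] at this

end Crest.Agent.X212.Cob34
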